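import Vale.Agent.P181.GK.Defs
import Vale.Agent.P181.R2.H350.PosAll
import Vale.Agent.P181.R2.H182.PtMul
import Vale.Agent.P181.R2.H959.FMul

set_option autoImplicit false

namespace Vale.Agent.P181.GK.H809

open Vale.Agent.P181 Vale.Agent.P181.H280 Vale.Agent.P181.FR Vale.Agent.P181.GK

theorem gw_two (g : ℕ → ℕ) : gw 2 g = ![g 1 + g 2, g 2] := by
  funext k
  unfold gw
  fin_cases k
  · show ∑ j ∈ Finset.Ioc 0 2, g j = g 1 + g 2
    rfl
  · show ∑ j ∈ Finset.Ioc 1 2, g j = g 2
    rfl

/-- positivity for two rows -/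
theorem pos_two : ∃ a0 : ℕ, ∀ a B x y : ℕ, a0 ≤ a → 9 * a ≤ y → y ≤ x → x + y = a * B →
    Pos B a 2 ![x, y] := by
  obtain ⟨a0, h⟩ := pos_all (m := 2) (i := 2) le_rfl le_rfl
  refine ⟨a0, fun a B x y ha hy hxy hs => ?_⟩
  have h1 := h a B (fun j => if j = 1 then x - y else if j = 2 then y else 0) ha (by simpa using hy)
    (by
      have : ∑ j ∈ Finset.Icc 1 2, j * (if j = 1 then x - y else if j = 2 then y else 0) =
        1 * (x - y) + 2 * y := rfl
      rw [this]; omega)
  rw [gw_two] at h1
  have h2 : (![(fun j => if j = 1 then x - y else if j = 2 then y else 0) 1 +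
      (fun j => if j = 1 then x - y else if j = 2 then y else 0) 2,
      (fun j => if j = 1 then x - y else if j = 2 then y else 0) 2] : Fin 2 → ℕ) = ![x, y] := by
    have : x - y + y = x := Nat.sub_add_cancel hxy
    simp [this]
  rw [h2] at h1
  exact h1

theorem wt2_add {n : ℕ} (x y x' y' : ℕ) (lam lam' : Fin (n + 2) → ℕ) :
    wt2 x y lam + wt2 x' y' lam' = wt2 (x + x') (y + y') (lam + lam') := by
  funext i
  refine Fin.cases ?_ (fun i => ?_) i
  · rfl
  · refine Fin.cases ?_ (fun i => ?_) i
    · rfl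
    · rfl

theorem wt2_self {n : ℕ} (lam : Fin (n + 2) → ℕ) : wt2 (lam 0) (lam 1) lam = lam := by
  funext i
  refine Fin.cases ?_ (fun i => ?_) i
  · rfl
  · refine Fin.cases ?_ (fun i => ?_) i
    · rfl
    · rfl

theorem fill (hp : PadPos) : FillG := by
  obtain ⟨a0, hpos⟩ := pos_two
  refine ⟨a0 + 20, ?_⟩
  intro a b B A W n lam h10 hsum hA hB hBb hBA hpar hW
  set t := ∑ i : Fin n, lam i.succ.succ with ht
  have hsum' : lam 0 + lam 1 + t = a * b := by
    rw [← hsum, Fin.sum_univ_succ, Fin.sum_univ_succ, ← add_assoc]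
    rfl
  set d := a - A with hd
  have hda : d + A = a := by omega
  -- the parity
  set f := B * d / 2 with hf
  set c := B * d - f with hc
  have hcf : c + f = B * d := by
    have : f ≤ B * d := Nat.div_le_self _ _
    omega
  have hfc : f ≤ c := by omega
  have hcf1 : c ≤ f + 1 := by omega
  have hBd : B * d + B * A = B * a := by rw [← mul_add, hda]
  have hbB : ∃ e, b = B + e := ⟨b - B, by omega⟩
  obtain ⟨e, rfl⟩ := hbB
  have hab : a * (B + e) = B * a + a * e := by ring
  have hkey : lam 1 = lam 0 → c = f := by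
    intro h01
    have h1 : (B * d) % 2 = 0 := by
      have h2 : 2 * lam 0 + t = B * a + a * e := by
        rw [← hab, ← hsum', h01]; ring
      rcases Nat.even_or_odd B with hBe | hBo
      · obtain ⟨B', rfl⟩ := hBe
        rw [show (B' + B') * d = 2 * (B' * d) by ring]
        omega
      · have ho : t % 2 = 1 := by
          rw [← hpar]; exact Nat.odd_iff.mp hBo
        have h3 : (a * (B + e)) % 2 = 1 := by
          rw [hab, ← h2]; omega
        have h4 : Odd a := by
          have h5 : Odd (a * (B + e)) := Nat.odd_iff.mpr h3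
          exact (Nat.odd_mul.mp h5).1
        have h6 : Odd (B * a) := hBo.mul h4
        have h7 := Nat.odd_iff.mp h6
        omega
    omega
  -- the two auxiliary vectors
  have p1 : Pos B d 2 ![c, f] := by
    refine hpos d B c f (by omega) ?_ hfc (by rw [hcf, mul_comm])
    have h1 : 20 * d ≤ B * d := Nat.mul_le_mul_right d (by omega)
    omega
  have q1 := hp B d n ![c, f] p1
  have hle1 : W + f + 9 * a ≤ lam 1 := hW
  have p2 : Pos e a 2 ![lam 0 - (W + c), lam 1 - (W + f)] := by
    refine hpos a e _ _ (by omega) (by omega) ?_ ?_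
    · by_cases h01 : lam 1 = lam 0
      · have := hkey h01
        omega
      · omega
    · have h1 : W + c ≤ lam 0 := by
        by_cases h01 : lam 1 = lam 0
        · have := hkey h01
          omega
        · omega
      have h2 : lam 0 + lam 1 + t = B * a + a * e := by rw [hsum', hab]
      have h3 : B * A = 2 * W + t := hBA
      omega
  have q2 := hp e a n ![lam 0 - (W + c), lam 1 - (W + f)] p2
  have s1 := plethMult_pt (c := A) (lam := wt2 W W lam) q1
  rw [hda] at s1
  have s2 := plethMult_mul (b := B)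
    (lam := wt2 ((![c, f] : Fin 2 → ℕ) 0) ((![c, f] : Fin 2 → ℕ) 1) (fun _ => 0) + wt2 W W lam) q2
  refine s1.trans (s2.trans (le_of_eq ?_))
  congr 1
  have h1 : W + c ≤ lam 0 := by
    by_cases h01 : lam 1 = lam 0
    · have := hkey h01
      omega
    · omega
  rw [wt2_add, wt2_add]
  conv_rhs => rw [← wt2_self lam]
  have e0 : (![c, f] : Fin 2 → ℕ) 0 + W + (![lam 0 - (W + c), lam 1 - (W + f)] : Fin 2 → ℕ) 0 =
      lam 0 := by
    show c + W + (lam 0 - (W + c)) = lam 0
    omega
  have e1 : (![c, f] : Fin 2 → ℕ) 1 + W + (![lam 0 - (W + c), lam 1 - (W + f)] : Fin 2 → ℕ) 1 =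
      lam 1 := by
    show f + W + (lam 1 - (W + f)) = lam 1
    omega
  rw [e0, e1]
  congr 1
  funext i
  simp

end Vale.Agent.P181.GK.H809
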